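import Vale.Agent.P113.H584.Main

namespace Vale.Agent.Results.P113.OneFlowAllViscosities

open Vale.Agent.P113

/-- Forced Navier-Stokes flows from rest on the flat three-torus simulate all machines; one family
of uniformly bounded velocity fields, one point and one open set serve for all viscosities
`ν ≥ 0`, the Euler case `ν = 0` included. -/
theorem result :
    (∀ ν : ℝ, 0 < ν → IsComputableReal ν →
      ∃ (a : T3) (O : Set T3) (compile : Machine × List ℕ → Nat.Partrec.Code)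
        (f : Machine × List ℕ → ℝ → T3 → E3),
        IsOpen O ∧ IsForceCompiler compile f ∧
        ∀ (M : Machine) (w : List ℕ), ∃ (u : ℝ → T3 → E3) (p : ℝ → T3 → ℝ),
          IsGlobalSmoothSolution ν (f (M, w)) u p ∧
          (∀ T : ℝ, 0 < T → ∀ v q, IsClassicalSolution ν T (f (M, w)) v q →
            ∀ t ∈ Set.Icc 0 T, v t = u t ∧ q t = p t) ∧
          (∃ X, IsTrajectory u a X) ∧
          ∀ X, IsTrajectory u a X → ((∃ t : ℝ, 0 ≤ t ∧ proj (X t) ∈ O) ↔ HaltsOn M w)) ∧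
    ∃ (a : T3) (O : Set T3) (u : Machine × List ℕ → ℝ → T3 → E3),
      IsOpen O ∧ (∃ C : ℝ, ∀ P t x i, |u P t x i| ≤ C) ∧
      (∀ (M : Machine) (w : List ℕ), ∃ X, IsTrajectory (u (M, w)) a X) ∧
      (∀ (M : Machine) (w : List ℕ) (X : ℝ → E3), IsTrajectory (u (M, w)) a X →
        (HaltsOn M w → ∀ T : ℝ, ∃ t : ℝ, T ≤ t ∧ 0 ≤ t ∧ proj (X t) ∈ O) ∧
        (¬ HaltsOn M w → (∀ t : ℝ, 0 ≤ t → proj (X t) ∉ O) ∧ ∀ t : ℝ, 1 ≤ t → X t = X 1)) ∧
      ∀ ν : ℝ, 0 ≤ ν → IsComputableReal ν →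
        ∃ (compile : Machine × List ℕ → Nat.Partrec.Code) (f : Machine × List ℕ → ℝ → T3 → E3),
          IsSplitForceCompiler compile f ∧ (∀ P t x, 1 ≤ t → f P (t + 1) x = f P t x) ∧
          ∀ (M : Machine) (w : List ℕ),
            IsGlobalSmoothSolution ν (f (M, w)) (u (M, w)) (fun _ _ => 0) ∧
            ∀ T : ℝ, 0 < T → ∀ v q, IsClassicalSolution ν T (f (M, w)) v q →
              ∀ t ∈ Set.Icc 0 T, v t = u (M, w) t ∧ q t = fun _ => 0 :=
  ⟨fun ν hν hc => main ν hν hc, H584.universal⟩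

end Vale.Agent.Results.P113.OneFlowAllViscosities
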