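import Vale.Agent.P113.H435.Main

namespace Vale.Agent.Results.P113.SteadyFlows

open Vale.Agent.P113

/-- Forced Navier-Stokes flows from rest on the flat three-torus simulate all machines. The forces
can be taken arbitrarily small with all derivatives up to any given order, and independent of time
from time two on, with a velocity field which is then steady too; the number of steps up to
halting is read off linearly from the time at which the trajectory reaches the open set. -/
theorem result :
    (∀ ν : ℝ, 0 < ν → IsComputableReal ν →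
      ∃ (a : T3) (O : Set T3) (compile : Machine × List ℕ → Nat.Partrec.Code)
        (f : Machine × List ℕ → ℝ → T3 → E3),
        IsOpen O ∧ IsForceCompiler compile f ∧
        ∀ (M : Machine) (w : List ℕ), ∃ (u : ℝ → T3 → E3) (p : ℝ → T3 → ℝ),
          IsGlobalSmoothSolution ν (f (M, w)) u p ∧
          (∀ T : ℝ, 0 < T → ∀ v q, IsClassicalSolution ν T (f (M, w)) v q →
            ∀ t ∈ Set.Icc 0 T, v t = u t ∧ q t = p t) ∧
          (∃ X, IsTrajectory u a X) ∧
          ∀ X, IsTrajectory u a X → ((∃ t : ℝ, 0 ≤ t ∧ proj (X t) ∈ O) ↔ HaltsOn M w)) ∧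
    ∃ (a : T3) (O : Set T3), IsOpen O ∧
      ∀ ν : ℝ, 0 < ν → IsComputableReal ν → ∀ ε : ℝ, 0 < ε → ∀ m : ℕ,
        ∃ (A B : List ℕ → ℝ) (F V : Machine → T3 → E3)
          (compile : Machine × List ℕ → Nat.Partrec.Code)
          (f u : Machine × List ℕ → ℝ → T3 → E3),
          IsForceCompiler compile f ∧
          (∀ P i α, α.1 + α.2.1 + α.2.2.1 + α.2.2.2 ≤ m → ∀ t x,
            |mixed α (fun s y => f P s (proj y) i) t x| ≤ ε) ∧
          ∀ (M : Machine) (w : List ℕ),
            (∀ t, 2 ≤ t → f (M, w) t = F M ∧ u (M, w) t = V M) ∧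
            IsGlobalSmoothSolution ν (f (M, w)) (u (M, w)) (fun _ _ => 0) ∧
            (∀ T : ℝ, 0 < T → ∀ v q, IsClassicalSolution ν T (f (M, w)) v q →
              ∀ t ∈ Set.Icc 0 T, v t = u (M, w) t ∧ q t = fun _ => 0) ∧
            (∃ X, IsTrajectory (u (M, w)) a X) ∧
            ∀ X, IsTrajectory (u (M, w)) a X → ∀ n : ℕ,
              ((∃ t : ℝ, 0 ≤ t ∧ t ≤ A w + B w * n ∧ proj (X t) ∈ O) ↔
                ∃ k ≤ n, ((step M)^[k] (0, Turing.Tape.mk₁ w)).1 ∈ M.2) :=
  ⟨fun ν hν hc => main ν hν hc, 0, openSet, openSet_isOpen,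
    fun ν hν hc ε hε m => H435.steady ν hν hc ε hε m⟩

end Vale.Agent.Results.P113.SteadyFlows
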